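import Mathlib
import Vale.Agent.Lib.P248.helper37.Q2Defs

/-!
# P248, pool leaf Q2AB-J9 (second copy, helper91): the lower bound for the pieces of the polar

`polK_lower_of` is the induction on the dimension with the six leaf statements it uses passed in
as hypotheses, so that it does not depend on which copies of those leaves are chosen.
-/

open MeasureTheory Set

namespace Vale.Agent.Lib.P248.H91Q

open Vale.Agent.Lib.P248.H37 Vale.Agent.Lib.P248.H37Q

/-- `ENNReal.ofReal` is subadditive over finite sums. -/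
theorem ofReal_sum_le {ι : Type*} (s : Finset ι) (f : ι → ℝ) :
    ENNReal.ofReal (∑ i ∈ s, f i) ≤ ∑ i ∈ s, ENNReal.ofReal (f i) := by
  classical
  induction s using Finset.induction_on with
  | empty => simp
  | insert a s ha ih =>
    rw [Finset.sum_insert ha, Finset.sum_insert ha]
    exact ENNReal.ofReal_add_le.trans (add_le_add le_rfl ih)

/-- The real identity behind the induction step. -/
theorem step_identity {n : ℕ} (z : Fin (n + 1) → ℝ) (hz : ∀ i, 0 < z i) (O : Fin (n + 1) → ℝ)
    (k : ℕ) :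
    ((k : ℝ) + 1) * ((∑ i, O i) /
        (((k + 1).factorial : ℝ) * ((n + 1).factorial : ℝ) * ∏ j, z j)) =
      ∑ i, (1 / (((n : ℝ) + 1) * z i)) *
        (O i / ((k.factorial : ℝ) * (n.factorial : ℝ) * ∏ j, z (i.succAbove j))) := by
  rw [Finset.sum_div, Finset.mul_sum]
  refine Finset.sum_congr rfl fun i _ => ?_
  rw [Fin.prod_univ_succAbove z i, Nat.factorial_succ, Nat.factorial_succ]
  push_cast
  have hzi : z i ≠ 0 := (hz i).ne'
  have hPi : (∏ j, z (i.succAbove j)) ≠ 0 := (Finset.prod_pos fun j _ => hz _).ne'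
  have hk : ((k : ℝ) + 1) ≠ 0 := by positivity
  have hn : ((n : ℝ) + 1) ≠ 0 := by positivity
  have hkf : (k.factorial : ℝ) ≠ 0 := by positivity
  have hnf : (n.factorial : ℝ) ≠ 0 := by positivity
  field_simp

/-- Pool leaf Q2AB-J9 with the leaves it uses as hypotheses: the `k`-negative part of the polar
of `A` about `z` has volume at least `Om k / (k! m! ∏ z)` of the tree of `A`. -/
theorem polK_lower_of
    (adm_sec : ∀ {n : ℕ} {A : Set (Fin (n + 1) → ℝ)} {z : Fin (n + 1) → ℝ} (_ : Adm A z)
      (i : Fin (n + 1)), Adm (sec A i) (fun k => z (i.succAbove k)))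
    (vT_dim_zero : ∀ (A : Set (Fin 0 → ℝ)) (z : Fin 0 → ℝ), vT A z = 1)
    (volume_posZ_ne_top : ∀ {m : ℕ} {A : Set (Fin m → ℝ)} {z : Fin m → ℝ} (_ : Adm A z),
      volume (posZ A z) ≠ ⊤)
    (polK_zero : ∀ {m : ℕ} (A : Set (Fin m → ℝ)) (z : Fin m → ℝ), polK A z 0 = posZ A z)
    (polK_count : ∀ {m : ℕ} (A : Set (Fin m → ℝ)) (z : Fin m → ℝ) (k : ℕ),
      (k : ENNReal) * volume (polK A z k) = ∑ i, volume (polK A z k ∩ {y | y i < 0}))
    (polK_piece : ∀ {n : ℕ} {A : Set (Fin (n + 1) → ℝ)} {z : Fin (n + 1) → ℝ} (_ : Adm A z)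
      (i : Fin (n + 1)) (k : ℕ),
      ENNReal.ofReal (1 / (((n : ℝ) + 1) * z i)) *
          volume (polK (sec A i) (fun j => z (i.succAbove j)) k) ≤
        volume (polK A z (k + 1) ∩ {y | y i < 0})) :
    ∀ (m : ℕ) (A : Set (Fin m → ℝ)) (z : Fin m → ℝ), Adm A z → ∀ k : ℕ,
    ENNReal.ofReal ((tree m A z).Om k / ((k.factorial : ℝ) * (m.factorial : ℝ) * ∏ i, z i)) ≤
      volume (polK A z k) := by
  intro m
  induction m with
  | zero =>
    intro A z h k
    cases k with
    | zero =>
      have h1 : (tree 0 A z).Om 0 = 1 := rfl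
      have h2 : volume (posZ A z) = ENNReal.ofReal (vT A z) := by
        show volume (posZ A z) = ENNReal.ofReal ((volume (posZ A z)).toReal)
        rw [ENNReal.ofReal_toReal (volume_posZ_ne_top h)]
      rw [h1, polK_zero, h2, vT_dim_zero]
      simp
    | succ k =>
      have h1 : (tree 0 A z).Om (k + 1) = 0 := rfl
      rw [h1]
      simp
  | succ n ih =>
    intro A z h k
    have hPpos : 0 < ∏ i, z i := Finset.prod_pos fun i _ => h.pos i
    cases k with
    | zero =>
      have h1 : (tree (n + 1) A z).Om 0 = ((n + 1).factorial : ℝ) * vT A z * ∏ i, z i := rfl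
      have h2 : volume (posZ A z) = ENNReal.ofReal (vT A z) := by
        show volume (posZ A z) = ENNReal.ofReal ((volume (posZ A z)).toReal)
        rw [ENNReal.ofReal_toReal (volume_posZ_ne_top h)]
      rw [h1, polK_zero, h2]
      refine le_of_eq (congrArg _ ?_)
      have hf : ((n + 1).factorial : ℝ) ≠ 0 := by positivity
      have hP : (∏ i, z i) ≠ 0 := hPpos.ne'
      rw [Nat.factorial_zero, Nat.cast_one, one_mul]
      field_simp
    | succ k =>
      have hO : (tree (n + 1) A z).Om (k + 1) =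
          ∑ i, (tree n (sec A i) (fun j => z (i.succAbove j))).Om k := rfl
      have hk0 : ((k + 1 : ℕ) : ENNReal) ≠ 0 := by
        rw [Nat.cast_ne_zero]
        exact Nat.succ_ne_zero k
      have hkt : ((k + 1 : ℕ) : ENNReal) ≠ ⊤ := ENNReal.natCast_ne_top _
      rw [hO, ← ENNReal.mul_le_mul_iff_right hk0 hkt, polK_count A z (k + 1)]
      have hkey := step_identity z h.pos
        (fun i => (tree n (sec A i) (fun j => z (i.succAbove j))).Om k) k
      have hcast : ((k + 1 : ℕ) : ENNReal) = ENNReal.ofReal ((k : ℝ) + 1) := by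
        rw [← ENNReal.ofReal_natCast (k + 1)]
        push_cast
        rfl
      have hknn : (0 : ℝ) ≤ (k : ℝ) + 1 := by positivity
      rw [hcast, ← ENNReal.ofReal_mul hknn, hkey]
      refine (ofReal_sum_le _ _).trans (Finset.sum_le_sum fun i _ => ?_)
      have hann : (0 : ℝ) ≤ 1 / (((n : ℝ) + 1) * z i) := by
        have := h.pos i
        positivity
      rw [ENNReal.ofReal_mul hann]
      refine le_trans ?_ (polK_piece h i k)
      gcongr
      exact ih _ _ (adm_sec h i) k

end Vale.Agent.Lib.P248.H91Q
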