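import Mathlib
import Vale.Agent.Lib.P248.helper1.ConeDefs

/-!
# P248 pool job SPC (helper91, second copy): a symmetric set has at most the weighted volume

For a measurable set `T` with `-T = T` on which `|⟪z, y⟫| < 1`, the volume of `T` is at most
the integral over `T` of `(1 - ⟪z, y⟫)^(-(m+1))`: pair `y` with `-y`.
-/

namespace Vale.Agent.Lib.P248.H91Y

open MeasureTheory Set
open scoped ENNReal
open Vale.Agent.Lib.P248.H1

/-- Symmetrization: if `σ` preserves the measure and `h + h ∘ σ ≤ k + k ∘ σ` pointwise, then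
the integral of `h` is at most the integral of `k`. -/
theorem lintegral_le_of_swap {α : Type*} [MeasurableSpace α] (μ : Measure α) (σ : α → α)
    (hσ : MeasurePreserving σ μ μ) (h k : α → ℝ≥0∞) (hh : Measurable h) (hk : Measurable k)
    (hle : ∀ z, h z + h (σ z) ≤ k z + k (σ z)) : ∫⁻ z, h z ∂μ ≤ ∫⁻ z, k z ∂μ := by
  have e1 : ∫⁻ z, h (σ z) ∂μ = ∫⁻ z, h z ∂μ := hσ.lintegral_comp hh
  have e2 : ∫⁻ z, k (σ z) ∂μ = ∫⁻ z, k z ∂μ := hσ.lintegral_comp hk
  have h3 : ∫⁻ z, (h z + h (σ z)) ∂μ ≤ ∫⁻ z, (k z + k (σ z)) ∂μ := lintegral_mono hle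
  rw [lintegral_add_left hh, lintegral_add_left hk, e1, e2] at h3
  by_contra hcon
  rw [not_le] at hcon
  exact absurd h3 (not_le.mpr (ENNReal.add_lt_add hcon hcon))

/-- The numerical inequality: for `|t| < 1`, `(1-t)^(-k) + (1+t)^(-k) ≥ 2`. -/
theorem two_le_inv_pow_add (t : ℝ) (ht : |t| < 1) (k : ℕ) :
    2 ≤ (1 - t)⁻¹ ^ k + (1 + t)⁻¹ ^ k := by
  have h1 : -1 < t := (abs_lt.mp ht).1
  have h2 : t < 1 := (abs_lt.mp ht).2
  have ha : 1 + t ≤ (1 - t)⁻¹ := by
    rw [le_inv_comm₀ (by linarith) (by linarith)]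
    rw [inv_eq_one_div, le_div_iff₀ (by linarith)]
    nlinarith [sq_nonneg t]
  have hb : 1 - t ≤ (1 + t)⁻¹ := by
    rw [le_inv_comm₀ (by linarith) (by linarith)]
    rw [inv_eq_one_div, le_div_iff₀ (by linarith)]
    nlinarith [sq_nonneg t]
  have hA : 1 + (k : ℝ) * t ≤ (1 - t)⁻¹ ^ k :=
    (one_add_mul_le_pow (by linarith) k).trans (pow_le_pow_left₀ (by linarith) ha k)
  have hB : 1 + (k : ℝ) * (-t) ≤ (1 + t)⁻¹ ^ k := by
    have := (one_add_mul_le_pow (a := -t) (by linarith) k).trans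
      (pow_le_pow_left₀ (by linarith) (by linarith [hb] : 1 + -t ≤ (1 + t)⁻¹) k)
    exact this
  linarith

theorem volume_le_lintegral_symm {m : ℕ} (z : EuclideanSpace ℝ (Fin m))
    (T : Set (EuclideanSpace ℝ (Fin m))) (hT : MeasurableSet T) (hTs : ∀ y ∈ T, -y ∈ T)
    (habs : ∀ y ∈ T, |inner ℝ z y| < 1) :
    volume T ≤ ∫⁻ y in T, ENNReal.ofReal ((1 - inner ℝ z y)⁻¹ ^ (m + 1)) := by
  have hgm : Measurable (fun y : EuclideanSpace ℝ (Fin m) =>
      ENNReal.ofReal ((1 - inner ℝ z y)⁻¹ ^ (m + 1))) := by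
    apply ENNReal.measurable_ofReal.comp
    exact ((measurable_const.sub (measurable_const.inner measurable_id)).inv).pow_const _
  have hmp : MeasurePreserving (fun y : EuclideanSpace ℝ (Fin m) => -y) volume volume :=
    Measure.measurePreserving_neg volume
  have key := lintegral_le_of_swap volume (fun y : EuclideanSpace ℝ (Fin m) => -y) hmp
    (T.indicator (fun _ => (1 : ℝ≥0∞)))
    (T.indicator (fun y => ENNReal.ofReal ((1 - inner ℝ z y)⁻¹ ^ (m + 1))))
    (measurable_const.indicator hT) (hgm.indicator hT) (by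
      intro y
      by_cases hy : y ∈ T
      · have hy' : -y ∈ T := hTs y hy
        simp only [Set.indicator, hy, hy', if_true]
        have ht := habs y hy
        have h2 := two_le_inv_pow_add (inner ℝ z y) ht (m + 1)
        have e : (1 : ℝ) - inner ℝ z (-y) = 1 + inner ℝ z y := by
          rw [inner_neg_right]; ring
        rw [e, ← ENNReal.ofReal_add (by
          have : (0 : ℝ) < 1 - inner ℝ z y := by linarith [(abs_lt.mp ht).2]
          positivity) (by
          have : (0 : ℝ) < 1 + inner ℝ z y := by linarith [(abs_lt.mp ht).1]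
          positivity)]
        have : (1 : ℝ≥0∞) + 1 = ENNReal.ofReal 2 := by
          rw [one_add_one_eq_two]; simp
        rw [this]
        exact ENNReal.ofReal_le_ofReal h2
      · have hy' : -y ∉ T := fun h => hy (by simpa using hTs (-y) h)
        simp only [Set.indicator, hy, hy', if_false]
        exact le_rfl)
  rw [lintegral_indicator hT, lintegral_indicator hT, setLIntegral_one] at key
  exact key

end Vale.Agent.Lib.P248.H91Y
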